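import Vale.Agent.Lib.P113.Defs
import Vale.Agent.Lib.P113.Uniqueness
import Vale.Agent.Lib.P113.Solution

/-!
# P113: halting detection by particle trajectories of forced Navier-Stokes flows from rest

For every viscosity `ν > 0` there are a point, an open set of the torus and a force compiler such
that for every Turing machine `M` and input `w` the forced Navier-Stokes system from rest has a
global smooth solution, unique among classical solutions on every `[0, T]`, whose trajectory from
the point meets the open set if and only if `M` halts on `w`.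
-/

namespace Vale.Agent.Results.P113.HaltingDetection

open Set Vale.Agent.Lib.P113

theorem result (ν : ℝ) (hν : 0 < ν) :
    ∃ (a : R3) (O : Set R3) (C : ForceCompiler),
      IsOpen O ∧ (∀ (i : Fin 3) (x : R3), x + e i ∈ O ↔ x ∈ O) ∧
      ∀ (M : Machine) (w : List ℕ),
        ∃ (u : ℝ → R3 → R3) (p : ℝ → R3 → ℝ),
          SmoothV u ∧ SmoothS p ∧
          (∀ T : ℝ, 0 < T → IsClassicalSolution ν (C.force M w) T u p) ∧
          (∀ T : ℝ, 0 < T → ∀ (v : ℝ → R3 → R3) (q : ℝ → R3 → ℝ),
            IsClassicalSolution ν (C.force M w) T v q →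
              ∀ t ∈ Icc 0 T, ∀ x, v t x = u t x ∧ q t x = p t x) ∧
          ∃ X : ℝ → R3, IsTrajectory u a X ∧
            (∀ Y : ℝ → R3, IsTrajectory u a Y → ∀ t, 0 ≤ t → Y t = X t) ∧
            ((∃ t, 0 ≤ t ∧ X t ∈ O) ↔ Halts M w) := by
  refine ⟨0, theO, theCompiler, theO_open, theO_per, fun M w => ?_⟩
  have hsol : ∀ T : ℝ, 0 < T →
      IsClassicalSolution ν (theCompiler.force M w) T (theU M w) (fun _ _ => 0) := fun T hT =>
    tf_classical ν hT (fun t => (Aint_hasDerivAt t).const_mul (cHalt M w))
      (continuous_const.mul psi_continuous) (by simp [Aint_zero])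
  refine ⟨theU M w, fun _ _ => 0, tf_smooth (contDiff_const.mul Aint_contDiff), contDiff_const,
    hsol, ?_, theX M w, theX_trajectory M w, trajectory_unique M w, enters_iff M w⟩
  intro T hT v q hv t ht x
  exact ⟨unique_u hν.le hv (hsol T hT) t ht x, unique_p hν.le hv (hsol T hT) t ht x⟩

end Vale.Agent.Results.P113.HaltingDetection
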