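import Vale.Agent.Lib.P113b.Defs
import Vale.Agent.Lib.P113b.Bridge

/-!
# P113: halting detection by particle trajectories of forced Navier-Stokes flows from rest

Second formalization: textbook Turing machines (finite state set, finite alphabet, transition
function, tape indexed by the integers), all analytic notions stated for the scalar components.

For every viscosity `ν > 0` there are a point, an open set of the torus and a force compiler such
that for every Turing machine `M` and input `w` the forced Navier-Stokes system from rest has a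
global smooth solution, unique among classical solutions on every `[0, T]`, whose trajectory from
the point meets the open set if and only if `M` halts on `w`.
-/

namespace Vale.Agent.Results.P113.HaltingDetectionTM

open Set Vale.Agent.Lib Vale.Agent.Lib.P113b

theorem result (ν : ℝ) (hν : 0 < ν) :
    ∃ (a : R3) (O : Set R3) (C : ForceCompiler),
      IsOpen O ∧ (∀ (i : Fin 3) (x : R3), x + e i ∈ O ↔ x ∈ O) ∧
      ∀ (M : TM) (w : List (Fin (M.nS + 1))),
        ∃ (u : ℝ → R3 → R3) (p : ℝ → R3 → ℝ),
          (∀ j, Smooth (cmp j u)) ∧ Smooth p ∧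
          (∀ T : ℝ, 0 < T → IsClassicalSolution ν (C.force M w) T u p) ∧
          (∀ T : ℝ, 0 < T → ∀ (v : ℝ → R3 → R3) (q : ℝ → R3 → ℝ),
            IsClassicalSolution ν (C.force M w) T v q →
              ∀ t ∈ Icc 0 T, ∀ x, v t x = u t x ∧ q t x = p t x) ∧
          ∃ X : ℝ → R3, IsTrajectory u a X ∧
            (∀ Y : ℝ → R3, IsTrajectory u a Y → ∀ t, 0 ≤ t → Y t = X t) ∧
            ((∃ t, 0 ≤ t ∧ X t ∈ O) ↔ M.Halts w) := by
  refine ⟨0, P113.theO, theCompiler, P113.theO_open, P113.theO_per, fun M w => ?_⟩
  have hsol : ∀ T : ℝ, 0 < T →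
      IsClassicalSolution ν (theCompiler.force M w) T (P113.theU M.desc (w.map Fin.val))
        (fun _ _ => 0) := fun T hT =>
    tf_classical ν hT (fun t => (P113.Aint_hasDerivAt t).const_mul (P113.cHalt M.desc _))
      (continuous_const.mul P113.psi_continuous) (by simp [P113.Aint_zero])
  refine ⟨P113.theU M.desc (w.map Fin.val), fun _ _ => 0, fun j => ?_, contDiff_const,
    hsol, ?_, P113.theX M.desc (w.map Fin.val), trajectory_iff.2 (P113.theX_trajectory _ _),
    fun Y hY => P113.trajectory_unique _ _ Y (trajectory_iff.1 hY),
    (P113.enters_iff _ _).trans (halts_iff_desc M w).symm⟩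
  · have := P113.tf_smooth (g := fun t => P113.cHalt M.desc (w.map Fin.val) * P113.Aint t)
      (contDiff_const.mul P113.Aint_contDiff)
    exact (contDiff_pi.1 this) j
  · intro T hT v q hv t ht x
    have h1 := classical_of_b hv
    have h2 := classical_of_b (hsol T hT)
    exact ⟨P113.unique_u hν.le h1 h2 t ht x, P113.unique_p hν.le h1 h2 t ht x⟩

end Vale.Agent.Results.P113.HaltingDetectionTM
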